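import Vale.Agent.P073Z.SURF.Sk
import Vale.Agent.P073Z.FACE
import Vale.Agent.P073Z.MAN
import Vale.Agent.P073Z.RCX
import Vale.Agent.P073Z.A14.Cyc

/-!
# The normal surface: arcs in the faces and discs in the three-cells
-/

open Set Metric Topology Filter

namespace P073.SF.Nm

variable {T : RCx E3} {ψ : E3 → ℝ} {c : ℝ} {I : E3 → Set E3} {zp zm : E3 → E3} {W : Set E3}

/-- the arcs and the strips in the faces -/
structure FD (T : RCx E3) (ψ : E3 → ℝ) (c : ℝ) (I : E3 → Set E3) (zp zm : E3 → E3)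
    (W : Set E3) where
  /-- the pairing -/
  τ : T.ι → E3 → E3
  /-- strips -/
  σ : T.ι → E3 → Set E3
  /-- upper arcs -/
  αp : T.ι → E3 → Set E3
  /-- lower arcs -/
  αm : T.ι → E3 → Set E3
  /-- middle arcs -/
  α : T.ι → E3 → Set E3
  str : ∀ F, T.dim F = 2 → ∀ z ∈ T.bd F, ψ z = c → (τ F z ∈ T.bd F ∧ ψ (τ F z) = c) ∧
    IsArc (αp F z) (zp z) (zp (τ F z)) ∧ IsArc (αm F z) (zm z) (zm (τ F z)) ∧
    (∀ x ∈ αp F z, c < ψ x) ∧ (∀ x ∈ αm F z, ψ x < c) ∧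
    αp F z ∩ T.bd F = {zp z, zp (τ F z)} ∧ αm F z ∩ T.bd F = {zm z, zm (τ F z)} ∧
    ConBall 2 (σ F z) (I z ∪ I (τ F z) ∪ αp F z ∪ αm F z) ∧ σ F z ⊆ T.cell F ∧
    σ F z ∩ T.bd F = I z ∪ I (τ F z) ∧ Disjoint (αp F z ∪ αm F z) W
  disj : ∀ F, T.dim F = 2 → ∀ z ∈ T.bd F, ψ z = c → ∀ z' ∈ T.bd F, ψ z' = c → z' ≠ z →
    z' ≠ τ F z → Disjoint (σ F z) (σ F z')
  mid : ∀ F, T.dim F = 2 → ∀ z ∈ T.bd F, ψ z = c → α F (τ F z) = α F z ∧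
    IsArc (α F z) z (τ F z) ∧ α F z ⊆ W ∩ σ F z ∧
    α F z ∩ (I z ∪ I (τ F z) ∪ αp F z ∪ αm F z) = {z, τ F z}

theorem mem_skel_of_bd {F : T.ι} (hF : T.dim F = 2) {z : E3} (hz : z ∈ T.bd F) : z ∈ T.skel 1 :=
  T.bd_subset_skel (k := 1) hF.le hz

theorem mem_bd_of_skel {F : T.ι} (hF : T.dim F = 2) {z : E3} (hz : z ∈ T.cell F)
    (h1 : z ∈ T.skel 1) : z ∈ T.bd F := by
  rw [← T.cell_inter_skel (k := 1) hF]
  exact ⟨hz, h1⟩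

theorem ball3 {Q : T.ι} (hQ : T.dim Q = 3) : ConBall 3 (T.cell Q) (T.bd Q) := by
  have h := T.ball Q
  rwa [hQ] at h

theorem fin_zero (L : Lev T ψ c I zp zm) {F : T.ι} (hF : T.dim F = 2) :
    {z | z ∈ T.bd F ∧ ψ z = c}.Finite :=
  (L.fin F).subset fun _ hz => ⟨T.bd_subset F hz.1, mem_skel_of_bd hF hz.1, hz.2⟩

theorem exists_fd (𝒲 : Set (Set E3)) (hψ : ContinuousOn ψ T.carrier) (L : Lev T ψ c I zp zm)
    (h1 : ∀ W ∈ 𝒲, IsOpen W ∧ {x ∈ T.carrier | ψ x = c} ⊆ W)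
    (h2 : ∀ A, A ⊆ T.carrier → ClosedIn A T.carrier → (∀ x ∈ A, ψ x ≠ c) →
      ∃ W ∈ 𝒲, Disjoint A W) : ∃ W ∈ 𝒲, Nonempty (FD T ψ c I zp zm W) := by
  have key := fun F (hF : T.dim F = 2) => face (D := T.cell F) (B := T.bd F) (ψ := ψ) (c := c)
    (fin_zero L hF).toFinset I zp zm (hF ▸ T.ball F) (hψ.mono (T.cell_subset_carrier F))
    (L.pass F hF) (fun x => (fin_zero L hF).mem_toFinset)
    (fun z hz => by
      obtain ⟨h3, h4⟩ := (fin_zero L hF).mem_toFinset.1 hz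
      obtain ⟨e, -, h5, h6, h7, h8⟩ := L.arc z (mem_skel_of_bd hF h3) h4
      exact ⟨h6, h5.trans ((T.ocell_subset e).trans (T.subset_bd_of_mem (h5 h7) h3)), h7, h8⟩)
    (fun z hz z' hz' hne => by
      obtain ⟨h3, h4⟩ := (fin_zero L hF).mem_toFinset.1 hz
      obtain ⟨h5, h6⟩ := (fin_zero L hF).mem_toFinset.1 hz'
      exact L.disj z (mem_skel_of_bd hF h3) z' (mem_skel_of_bd hF h5) h4 h6 hne)
  simp only [Finite.mem_toFinset, mem_ofPred_eq, and_imp] at key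
  choose! τ σ αp αm k1 k2 k3 using key
  let A : T.ι → Set E3 := fun F =>
    ⋃ (_ : T.dim F = 2), ⋃ z ∈ {z | z ∈ T.bd F ∧ ψ z = c}, (αp F z ∪ αm F z)
  have hA : ∀ F, A F ⊆ T.cell F := fun F => iUnion_subset fun hF => iUnion₂_subset fun z hz => by
    obtain ⟨-, -, -, -, -, -, -, -, -, -, -, -, h3, h4, -⟩ := k1 F hF z hz.1 hz.2
    refine Subset.trans ?_ (h3.1.trans h4)
    rw [union_assoc]
    exact subset_union_right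
  have hc : ∀ F, IsClosed (A F) := fun F => isClosed_iUnion_of_finite fun hF =>
    (fin_zero L hF).isClosed_biUnion fun z hz => by
      obtain ⟨-, -, -, -, -, -, h3, h4, -⟩ := k1 F hF z hz.1 hz.2
      exact h3.isClosed.union h4.isClosed
  have hl : LFIn A T.carrier := fun x hx => by
    obtain ⟨U, hU, hf⟩ := T.lfIn x hx
    exact ⟨U, hU, hf.subset fun F hF => hF.mono (inter_subset_inter_left _ (hA F))⟩
  obtain ⟨W, hW, hd⟩ := h2 (⋃ F, A F)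
    (iUnion_subset fun F => (hA F).trans (T.cell_subset_carrier F))
    (hl.closedIn_of_cover hc fun y hy => by
      obtain ⟨F, hF⟩ := mem_iUnion.1 hy
      exact ⟨F, hF, subset_iUnion A F⟩)
    (fun x hx => by
      obtain ⟨F, hF⟩ := mem_iUnion.1 hx
      obtain ⟨h3, hF⟩ := mem_iUnion.1 hF
      obtain ⟨z, hz, hF⟩ := mem_iUnion₂.1 hF
      obtain ⟨-, -, -, -, -, -, -, -, h4, h5, -⟩ := k1 F h3 z hz.1 hz.2
      exact hF.elim (fun h => (h4 x h).ne') fun h => (h5 x h).ne)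
  have k4 := fun F (hF : T.dim F = 2) => k3 F hF W (h1 W hW).1 fun x hx =>
    (h1 W hW).2 ⟨T.cell_subset_carrier F hx.1, hx.2⟩
  choose! α k4 using k4
  refine ⟨W, hW, ⟨⟨τ, σ, αp, αm, α, fun F hF z hz hz' => ?_, k2, k4⟩⟩⟩
  obtain ⟨a1, -, -, -, -, -, a2, a3, a4, a5, a6, a7, a8, a9, a10⟩ := k1 F hF z hz hz'
  refine ⟨a1, a2, a3, a4, a5, a6, a7, a8, a9, a10, hd.mono_left fun x hx => ?_⟩
  exact mem_iUnion.2 ⟨F, mem_iUnion.2 ⟨hF, mem_iUnion₂.2 ⟨z, ⟨hz, hz'⟩, hx⟩⟩⟩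

namespace FD

variable (f : FD T ψ c I zp zm W) {F F' : T.ι} {z z' x : E3}

theorem arc (hF : T.dim F = 2) (hz : z ∈ T.bd F) (h0 : ψ z = c) : IsArc (f.α F z) z (f.τ F z) :=
  (f.mid F hF z hz h0).2.1

theorem sub_σ (hF : T.dim F = 2) (hz : z ∈ T.bd F) (h0 : ψ z = c) : f.α F z ⊆ f.σ F z :=
  fun _ hx => ((f.mid F hF z hz h0).2.2.1 hx).2

theorem sub_cell (hF : T.dim F = 2) (hz : z ∈ T.bd F) (h0 : ψ z = c) : f.α F z ⊆ T.cell F :=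
  (f.sub_σ hF hz h0).trans (f.str F hF z hz h0).2.2.2.2.2.2.2.2.1

theorem mem_ends (hF : T.dim F = 2) (hz : z ∈ T.bd F) (h0 : ψ z = c) (hx : x ∈ f.α F z)
    (hb : x ∈ T.bd F) : x ∈ ({z, f.τ F z} : Set E3) := by
  rw [← (f.mid F hF z hz h0).2.2.2]
  have h1 : x ∈ f.σ F z ∩ T.bd F := ⟨f.sub_σ hF hz h0 hx, hb⟩
  rw [(f.str F hF z hz h0).2.2.2.2.2.2.2.2.2.1] at h1
  exact ⟨hx, Or.inl (Or.inl h1)⟩

theorem ends_zero (hF : T.dim F = 2) (hz : z ∈ T.bd F) (h0 : ψ z = c)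
    (hx : x ∈ ({z, f.τ F z} : Set E3)) : x ∈ T.bd F ∧ ψ x = c := by
  rcases hx with rfl | rfl
  · exact ⟨hz, h0⟩
  · exact (f.str F hF z hz h0).1

theorem σ_disj (hF : T.dim F = 2) (hz : z ∈ T.bd F) (h0 : ψ z = c) (hz' : z' ∈ T.bd F)
    (h0' : ψ z' = c) (hne : f.α F z ≠ f.α F z') : Disjoint (f.σ F z) (f.σ F z') :=
  f.disj F hF z hz h0 z' hz' h0' (fun h => hne (by rw [h]))
    fun h => hne (by rw [h, (f.mid F hF z hz h0).1])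

theorem eq_of_mem (hF : T.dim F = 2) (hz : z ∈ T.bd F) (h0 : ψ z = c) (hz' : z' ∈ T.bd F)
    (h0' : ψ z' = c) (hx : x ∈ f.α F z) (hx' : x ∈ f.α F z') : f.α F z = f.α F z' := by
  by_contra hne
  exact Set.disjoint_left.1 (f.σ_disj hF hz h0 hz' h0' hne) (f.sub_σ hF hz h0 hx)
    (f.sub_σ hF hz' h0' hx')

/-- the index set of the arcs -/
abbrev IA : Type :=
  {p : T.ι × Set E3 // T.dim p.1 = 2 ∧ ∃ z, (z ∈ T.bd p.1 ∧ ψ z = c) ∧ p.2 = f.α p.1 z}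

/-- an end of an arc -/
noncomputable def en (a : f.IA) : E3 := Classical.choose a.2.2

theorem en_bd (a : f.IA) : f.en a ∈ T.bd a.1.1 := (Classical.choose_spec a.2.2).1.1

theorem en_zero (a : f.IA) : ψ (f.en a) = c := (Classical.choose_spec a.2.2).1.2

theorem en_eq (a : f.IA) : a.1.2 = f.α a.1.1 (f.en a) := (Classical.choose_spec a.2.2).2

theorem ia_arc (a : f.IA) : IsArc a.1.2 (f.en a) (f.τ a.1.1 (f.en a)) := by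
  rw [f.en_eq a]
  exact f.arc a.2.1 (f.en_bd a) (f.en_zero a)

theorem ia_cell (a : f.IA) : a.1.2 ⊆ T.cell a.1.1 := by
  rw [f.en_eq a]
  exact f.sub_cell a.2.1 (f.en_bd a) (f.en_zero a)

theorem ia_ends (a : f.IA) (hx : x ∈ a.1.2) (hb : x ∈ T.bd a.1.1) :
    x ∈ ({f.en a, f.τ a.1.1 (f.en a)} : Set E3) := by
  rw [f.en_eq a] at hx
  exact f.mem_ends a.2.1 (f.en_bd a) (f.en_zero a) hx hb

theorem ia_zero (a : f.IA) (hx : x ∈ ({f.en a, f.τ a.1.1 (f.en a)} : Set E3)) :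
    x ∈ T.bd a.1.1 ∧ ψ x = c := f.ends_zero a.2.1 (f.en_bd a) (f.en_zero a) hx

theorem ia_ext {a a' : f.IA} (h : a.1.1 = a'.1.1) (hx : x ∈ a.1.2) (hx' : x ∈ a'.1.2) :
    a = a' := by
  refine Subtype.ext (Prod.ext h ?_)
  have h1 := f.en_bd a'
  rw [f.en_eq a] at hx ⊢
  rw [f.en_eq a', ← h] at hx' ⊢
  rw [← h] at h1
  exact f.eq_of_mem a.2.1 (f.en_bd a) (f.en_zero a) h1 (f.en_zero a') hx hx'

theorem ia_inter {a a' : f.IA} (hne : a ≠ a') (hx : x ∈ a.1.2) (hx' : x ∈ a'.1.2) :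
    x ∈ T.bd a.1.1 :=
  T.inter_subset_bd (fun h => hne (f.ia_ext h hx hx')) (by rw [a.2.1, a'.2.1])
    ⟨f.ia_cell a hx, f.ia_cell a' hx'⟩

theorem ia_fin (L : Lev T ψ c I zp zm) (j : T.ι) : {a : f.IA | a.1.1 = j}.Finite := by
  refine (((finite_singleton j).prod ((L.fin j).image (f.α j))).preimage
    Subtype.val_injective.injOn).subset fun a ha => ⟨ha, f.en a, ?_, ?_⟩
  · rw [← show a.1.1 = j from ha]
    exact ⟨T.bd_subset _ (f.en_bd a), mem_skel_of_bd a.2.1 (f.en_bd a), f.en_zero a⟩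
  · rw [← show a.1.1 = j from ha]
    exact (f.en_eq a).symm

theorem ia_fin_room (L : Lev T ψ c I zp zm) (Q : T.ι) :
    {a : f.IA | T.cell a.1.1 ⊆ T.cell Q}.Finite :=
  ((T.finite_faces Q).biUnion fun j _ => f.ia_fin L j).subset fun a ha =>
    mem_iUnion₂.2 ⟨a.1.1, ha, rfl⟩

/-- exactly two arcs in the boundary of a three-cell end in a zero -/
theorem deg_two (L : Lev T ψ c I zp zm) {Q : T.ι} (hQ : T.dim Q = 3) (hx : x ∈ T.cell Q)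
    (h1 : x ∈ T.skel 1) (h0 : ψ x = c) :
    A14.deg (f.ia_fin_room L Q).toFinset (fun a => a.1.2) x = 2 := by
  obtain ⟨e, he, h2, -, h3, -⟩ := L.arc x h1 h0
  have hxe := h2 h3
  have h4 : T.cell e ⊆ T.bd Q :=
    T.subset_bd_of_dim_lt (T.cell_subset_of_mem hxe hx) (by omega)
  have h5 : ConBall (2 + 1) (T.cell Q) (T.bd Q) := ball3 hQ
  obtain ⟨F₁, F₂, hne, h6⟩ :=
    (man T (n := 1) (T.sub_bd Q) h5.conSphere.plMan).2.2.2.1 e h4 he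
  have h7 : ∀ F, (F = F₁ ∨ F = F₂) → T.dim F = 2 ∧ x ∈ T.bd F ∧ T.cell F ⊆ T.cell Q := by
    intro F hF
    obtain ⟨a1, a2, a3⟩ := (h6 F).2 hF
    exact ⟨a3, mem_bd_of_skel a3 (a1 (T.ocell_subset e hxe)) h1, a2.trans (T.bd_subset Q)⟩
  obtain ⟨b1, b2, b3⟩ := h7 F₁ (Or.inl rfl)
  obtain ⟨c1, c2, c3⟩ := h7 F₂ (Or.inr rfl)
  let a₁ : f.IA := ⟨(F₁, f.α F₁ x), b1, x, ⟨b2, h0⟩, rfl⟩
  let a₂ : f.IA := ⟨(F₂, f.α F₂ x), c1, x, ⟨c2, h0⟩, rfl⟩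
  have hx1 : x ∈ a₁.1.2 := (f.arc b1 b2 h0).left_mem
  have hx2 : x ∈ a₂.1.2 := (f.arc c1 c2 h0).left_mem
  refine ncard_eq_two.2 ⟨a₁, a₂, fun h => hne (congrArg (fun a : f.IA => a.1.1) h), ?_⟩
  ext a
  rw [mem_ofPred_eq, Finite.mem_toFinset]
  constructor
  · rintro ⟨d1, d2⟩
    have d3 : T.cell a.1.1 ⊆ T.bd Q := T.subset_bd_of_dim_lt d1 (by rw [a.2.1, hQ]; omega)
    rcases (h6 a.1.1).1 ⟨T.cell_subset_of_mem hxe (f.ia_cell a d2), d3, a.2.1⟩ with h | h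
    · exact Or.inl (f.ia_ext h d2 hx1)
    · exact Or.inr (f.ia_ext h d2 hx2)
  · rintro (rfl | rfl)
    · exact ⟨b3, hx1⟩
    · exact ⟨c3, hx2⟩

/-- the circles in the boundary of a three-cell -/
theorem exists_circles (L : Lev T ψ c I zp zm) {Q : T.ι} (hQ : T.dim Q = 3) :
    ∃ 𝒥 : Finset (Set E3),
      (∀ J ∈ 𝒥, IsCircle J ∧
        ∀ x ∈ J, ∃ a : f.IA, T.cell a.1.1 ⊆ T.cell Q ∧ x ∈ a.1.2 ∧ a.1.2 ⊆ J) ∧
      (∀ J ∈ 𝒥, ∀ J' ∈ 𝒥, J ≠ J' → Disjoint J J') ∧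
      ∀ a : f.IA, T.cell a.1.1 ⊆ T.cell Q → ∃ J ∈ 𝒥, a.1.2 ⊆ J := by
  classical
  have hend : ∀ a ∈ (f.ia_fin_room L Q).toFinset,
      ∀ x ∈ ({f.en a, f.τ a.1.1 (f.en a)} : Set E3),
        A14.deg (f.ia_fin_room L Q).toFinset (fun a => a.1.2) x = 2 := fun a ha x hx =>
    f.deg_two L hQ ((f.ia_fin_room L Q).mem_toFinset.1 ha (T.bd_subset _ (f.ia_zero a hx).1))
      (mem_skel_of_bd a.2.1 (f.ia_zero a hx).1) (f.ia_zero a hx).2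
  obtain ⟨𝒞, h1, h2, h3, h4⟩ := A14.exists_comps (f.ia_fin_room L Q).toFinset (fun a => a.1.2)
    f.en (fun a => f.τ a.1.1 (f.en a)) (fun a _ => f.ia_arc a)
    (fun a _ a' _ hne x hx => ⟨f.ia_ends a hx.1 (f.ia_inter hne hx.1 hx.2),
      f.ia_ends a' hx.2 (f.ia_inter hne.symm hx.2 hx.1)⟩)
    (fun x => by
      by_cases h : ∃ a ∈ (f.ia_fin_room L Q).toFinset, x ∈ a.1.2 ∧ x ∈ T.bd a.1.1
      · obtain ⟨a, ha, h5, h6⟩ := h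
        exact (hend a ha x (f.ia_ends a h5 h6)).le
      · refine le_trans ((ncard_le_one_iff A14.deg_finite).2 fun {a a'} ha ha' => ?_) one_le_two
        by_contra hne
        exact h ⟨a, ha.1, ha.2, f.ia_inter hne ha.2 ha'.2⟩)
  refine ⟨𝒞.image fun s => ⋃ a ∈ s, a.1.2, fun J hJ => ?_, fun J hJ J' hJ' hne => ?_,
    fun a ha => ?_⟩
  · obtain ⟨s, hs, rfl⟩ := Finset.mem_image.1 hJ
    refine ⟨?_, fun x hx => ?_⟩
    · rcases h4 s hs with h | ⟨p, q, -, ⟨a, ha, hp⟩, -, h⟩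
      · exact h.1
      · have h5 := (h a ha p hp).2 (Or.inl rfl)
        rw [hend a (h1 s hs ha) p hp] at h5
        exact absurd h5 (by norm_num)
    · obtain ⟨a, ha, hx⟩ := mem_iUnion₂.1 hx
      exact ⟨a, (f.ia_fin_room L Q).mem_toFinset.1 (h1 s hs ha), hx,
        subset_biUnion_of_mem (u := fun a : f.IA => a.1.2) ha⟩
  · obtain ⟨s, hs, rfl⟩ := Finset.mem_image.1 hJ
    obtain ⟨s', hs', rfl⟩ := Finset.mem_image.1 hJ'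
    exact h3 s hs s' hs' fun h => hne (by rw [h])
  · obtain ⟨s, hs, h⟩ := h2 a ((f.ia_fin_room L Q).mem_toFinset.2 ha)
    exact ⟨_, Finset.mem_image_of_mem _ hs, subset_biUnion_of_mem (u := fun a : f.IA => a.1.2) h⟩

end FD

/-- the discs in the three-cells -/
structure RD (f : FD T ψ c I zp zm W) where
  /-- circles -/
  𝒥 : T.ι → Finset (Set E3)
  /-- discs -/
  D : T.ι → Set E3 → Set E3
  cov : ∀ Q, T.dim Q = 3 → ∀ J ∈ 𝒥 Q, ∀ x ∈ J, ∃ a : f.IA, x ∈ a.1.2 ∧ a.1.2 ⊆ J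
  room : ∀ Q, T.dim Q = 3 → ∀ a : f.IA, T.cell a.1.1 ⊆ T.cell Q → ∃ J ∈ 𝒥 Q, a.1.2 ⊆ J
  ball : ∀ Q, T.dim Q = 3 → ∀ J ∈ 𝒥 Q,
    ConBall 2 (D Q J) J ∧ D Q J ⊆ T.cell Q ∧ D Q J ∩ T.bd Q = J
  disj : ∀ Q, T.dim Q = 3 → ∀ J ∈ 𝒥 Q, ∀ J' ∈ 𝒥 Q, J ≠ J' → Disjoint (D Q J) (D Q J')
  loc : ∀ Q, T.dim Q = 3 → ∀ J ∈ 𝒥 Q, ∀ p ∈ J, ∀ U ∈ 𝓝 p, ∀ᶠ y in 𝓝 p, y ∈ T.cell Q →
    y ∉ D Q J → ∃ K ⊆ (U ∩ T.cell Q) \ D Q J, IsPreconnected K ∧ y ∈ K ∧ (K ∩ T.bd Q).Nonempty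

theorem exists_rd (hC : CAPS) (f : FD T ψ c I zp zm W) (L : Lev T ψ c I zp zm) :
    Nonempty (RD f) := by
  have k1 := fun Q (hQ : T.dim Q = 3) => f.exists_circles L hQ
  choose! 𝒥 k1 k2 k3 using k1
  have k4 : ∀ Q, T.dim Q = 3 → ∃ D : Set E3 → Set E3,
      (∀ J ∈ 𝒥 Q, ConBall 2 (D J) J ∧ D J ⊆ T.cell Q ∧ D J ∩ T.bd Q = J) ∧
      (∀ J ∈ 𝒥 Q, ∀ J' ∈ 𝒥 Q, J ≠ J' → Disjoint (D J) (D J')) ∧
      ∀ J ∈ 𝒥 Q, ∀ p ∈ J, ∀ U ∈ 𝓝 p, ∀ᶠ y in 𝓝 p, y ∈ T.cell Q → y ∉ D J →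
        ∃ K ⊆ (U ∩ T.cell Q) \ D J, IsPreconnected K ∧ y ∈ K ∧ (K ∩ T.bd Q).Nonempty := by
    intro Q hQ
    rcases (𝒥 Q).eq_empty_or_nonempty with h | ⟨J₀, hJ₀⟩
    · rw [h]
      exact ⟨id, by simp, by simp, by simp⟩
    have hb : ∀ a : f.IA, T.cell a.1.1 ⊆ T.cell Q → T.cell a.1.1 ⊆ T.bd Q := fun a ha =>
      T.subset_bd_of_dim_lt ha (by rw [a.2.1, hQ]; omega)
    obtain ⟨A, B, p, q, h1, -, -, h2⟩ := (k1 Q hQ J₀ hJ₀).1.exists_arcs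
    obtain ⟨a, h3, -⟩ := (k1 Q hQ J₀ hJ₀).2 p (by rw [h2]; exact Or.inl h1.left_mem)
    obtain ⟨e, he, h4, h5, h6, -, h7⟩ :=
      L.arc (f.en a) (mem_skel_of_bd a.2.1 (f.en_bd a)) (f.en_zero a)
    have h8 := T.ocell_subset e (h4 h5.right_mem)
    refine hC (𝒥 Q) (v := zp (f.en a)) (ball3 hQ)
      (hb a h3 (T.bd_subset _ (T.subset_bd_of_mem (h4 h6) (f.en_bd a) h8)))
      (fun J hJ => ⟨(k1 Q hQ J hJ).1, fun x hx => ?_, fun hv => ?_⟩) (k2 Q hQ)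
    · obtain ⟨a', d1, d2, -⟩ := (k1 Q hQ J hJ).2 x hx
      exact hb a' d1 (f.ia_cell a' d2)
    · obtain ⟨a', -, d2, -⟩ := (k1 Q hQ J hJ).2 _ hv
      have d3 := mem_bd_of_skel a'.2.1 (f.ia_cell a' d2) (T.cell_subset_skel he.le h8)
      exact h7.ne' (f.ia_zero a' (f.ia_ends a' d2 d3)).2
  choose! D k4 k5 k6 using k4
  exact ⟨⟨𝒥, D, fun Q hQ J hJ x hx => ((k1 Q hQ J hJ).2 x hx).imp fun _ h => h.2, k3, k4, k5, k6⟩⟩

end P073.SF.Nm
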